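import Vale.Agent.P280C59.Ord
import Vale.Agent.P299G11.Frm

/-!
# P280C59: the row `COV`
-/

open scoped Manifold ContDiff Topology
open Matrix Filter MvPolynomial
open Vale.Agent.P272.K Vale.Agent.P285.H281.FD Vale.Agent.P300.Final Vale.Agent.P299G40
open Vale.Agent.P280Z (QuoC)
open Vale.Agent.P009.AV (aff)

noncomputable section

namespace Vale.Agent.P280A.C59

variable {n N : ℕ} {X : Type} [TopologicalSpace X] [ChartedSpace (Cm n) X]

/-- the frame of the tangent space of the cone -/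
def TT (Φ : X → PN N) (e : Chart n X) (i : Fin (N + 1)) (x : X) :
    Matrix (Fin (N + 1)) (Fin (n + 1)) ℂ :=
  Matrix.of fun j => Fin.cons (aff i (Φ x) j) fun k => dAff Φ e i x (Pi.single k 1) j

theorem TT_mulVec (Φ : X → PN N) (e : Chart n X) {i : Fin (N + 1)} {x : X}
    (h : (Φ x).rep i ≠ 0) (v : Fin (n + 1) → ℂ) : (Φ x).rep i • TT Φ e i x *ᵥ v =
      v 0 • (Φ x).rep + (Φ x).rep i • dAff Φ e i x (Fin.tail v) := by
  have h1 : dAff Φ e i x (Fin.tail v) = ∑ k, v k.succ • dAff Φ e i x (Pi.single k 1) := by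
    conv_lhs => rw [pi_eq_sum_univ' (Fin.tail v)]
    simp [Fin.tail]
  funext j
  simp only [h1, TT, Pi.smul_apply, Matrix.mulVec, dotProduct, Fin.sum_univ_succ, Matrix.of_apply,
    Fin.cons_zero, Fin.cons_succ, smul_eq_mul, Pi.add_apply, Finset.sum_apply, aff, mul_add]
  rw [Finset.sum_congr rfl fun k _ => mul_comm _ (v (Fin.succ k))]
  field_simp

theorem cons_dot (a : Cm n) (v : Fin (n + 1) → ℂ) :
    (Fin.cons 0 a : Fin (n + 1) → ℂ) ⬝ᵥ v = a ⬝ᵥ Fin.tail v := by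
  simp [dotProduct, Fin.sum_univ_succ, Fin.tail]

theorem eval_aff {K : ℕ} {P : MvPolynomial (Fin (K + 1)) ℂ} {d : ℕ} (h : P.IsHomogeneous d)
    {y : PN K} {l : Fin (K + 1)} (hl : y.rep l ≠ 0) :
    eval y.rep P = y.rep l ^ d * eval (aff l y) P := by
  have : y.rep = y.rep l • aff l y := funext fun j => (mul_div_cancel₀ _ hl).symm
  conv_lhs => rw [this]
  rw [eval_eq', eval_eq', Finset.mul_sum]
  refine Finset.sum_congr rfl fun m hm => ?_
  have h2 : ∑ i, m i = d := by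
    rw [← h (mem_support_iff.1 hm), Finsupp.weight_apply, Finsupp.sum_fintype _ _ (by simp)]
    simp
  simp only [Pi.smul_apply, smul_eq_mul, mul_pow, Finset.prod_mul_distrib,
    Finset.prod_pow_eq_pow_sum, h2]
  ring

theorem zero_iff {x y a b s t u : ℂ} (d : ℕ) (hu : u ≠ 0) (hb : b ≠ 0) (ht : t ≠ 0) :
    x = 0 ∨ y = 0 ∨ a = 0 ∨ s = 0 ↔ x * y * (a / b) * (u * (a / b) ^ (d + 1) * (s / t)) = 0 := by
  simp only [mul_eq_zero, div_eq_zero_iff, hu, hb, ht, pow_eq_zero_iff (Nat.succ_ne_zero d),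
    or_false, false_or]
  tauto

theorem quot_eq {x y z a b s t u : ℂ} (d : ℕ) (hu : u ≠ 0) (hb : b ≠ 0) (ht : t ≠ 0) (ha : a ≠ 0)
    (hs : s ≠ 0) : b ^ d * x / u * y * t * z / (a ^ d * s) =
      x * y * (a / b) / (u * (a / b) ^ (d + 1) * (s / t)) * z := by
  rw [pow_succ, div_pow]
  field_simp

theorem an_TT [IsManifold 𝓘(ℂ, Cm n) ω X] {Φ : X → PN N} (hΦ : IsProjectiveImmersion (Cm n) Φ)
    {S : Type} [TopologicalSpace S] [ChartedSpace (Cm 1) S] [IsManifold 𝓘(ℂ, Cm 1) ω S]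
    {f : S → X} (hf : ContMDiff 𝓘(ℂ, Cm 1) 𝓘(ℂ, Cm n) ω f) {e : Chart n X} {p : S}
    (he : At e (f p)) {i : Fin (N + 1)} (hi : (Φ (f p)).rep i ≠ 0) :
    (∀ j k, An (fun c => TT Φ e i (f c) j k) p) := by
  have h1 := ((lift_aff hΦ i).holo _ hi e he).analyticAt
  have h0 : ∀ {F : Type} [NormedAddCommGroup F] [NormedSpace ℂ F] {g : Cm n → F},
      AnalyticAt ℂ g (e (f p)) → An (fun c => g (e (f c))) p := fun hg c hc =>
    hg.comp_of_eq (an_chart hf he c hc) (by rw [c.left_inv hc.2])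
  intro j k
  refine Fin.cases ?_ (fun k => ?_) k
  · intro c hc
    refine ((h0 h1).app j c hc).congr ?_
    filter_upwards [(c.tendsto_symm hc.2).eventually
      (hf.continuous.continuousAt.eventually_mem (e.open_source.mem_nhds he.2))] with t ht
    simp [TT, e.left_inv ht]
  · exact (h0 (((ContinuousLinearMap.apply ℂ _ (Pi.single k (1 : ℂ))).analyticAt _).comp
      h1.fderiv)).app j

end Vale.Agent.P280A.C59

namespace Vale.Agent.P280A

open C59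

theorem cov59 (hT : TAN) (hM : MAP) : COV := by
  intro n N K Z X _ _ _ Φ S _ _ _ _ _ _ Θ f L α hZ hA hΘ hΘ' hf hL hq
  let Ad : S → Chart n X → Fin (N + 1) → L.ι → Prop := fun c e i a =>
    At e (f c) ∧ (Φ (f c)).rep i ≠ 0 ∧ c ∈ L.U a
  choose a0 ha0 using hL.cover
  let e0 : S → Chart n X := fun c => chartAt (Cm n) (f c)
  let i0 : S → Fin (N + 1) := fun c => idx (Φ (f c))
  have ad0 : ∀ c a, c ∈ L.U a → Ad c (e0 c) (i0 c) a := fun c a h => ⟨at_chart _, idx_ne _, h⟩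
  have adv : ∀ p e i a, Ad p e i a → ∀ᶠ c in 𝓝 p, Ad c e i a := fun p e i a h => by
    have hc := hf.continuous.continuousAt (x := p)
    filter_upwards [hc.eventually_mem (e.open_source.mem_nhds h.1.2),
      hc.eventually_mem ((lift_aff hA.2.1 i).isOpen.mem_nhds h.2.1),
      (hL.isOpen a).mem_nhds h.2.2] with c h1 h2 h3 using ⟨⟨h.1.1, h1⟩, h2, h3⟩
  have tan := fun c e i a (h : Ad c e i a) => hT n N Z X Φ hZ hA e (f c) i h.1 h.2.1
  have mem : ∀ c e i a, Ad c e i a → ∀ w, w ∈ tangent Z (Φ (f c)) ↔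
      ∃ v, w = (Φ (f c)).rep i • TT Φ e i (f c) *ᵥ v := fun c e i a h w => by
    rw [(tan c e i a h).1]
    refine ⟨fun ⟨κ, ξ, e1⟩ => ⟨Fin.cons κ ξ, ?_⟩, fun ⟨v, e1⟩ => ⟨v 0, Fin.tail v, ?_⟩⟩
    · rw [TT_mulVec Φ e h.2.1, e1]
      simp
    · rw [e1, TT_mulVec Φ e h.2.1]
  have inj : ∀ c e i a, Ad c e i a → ∀ v, TT Φ e i (f c) *ᵥ v = 0 → v = 0 := fun c e i a h v hv => by
    have := (tan c e i a h).2.1 (v 0) (Fin.tail v) (by rw [← TT_mulVec Φ e h.2.1, hv, smul_zero])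
    exact funext fun k => Fin.cases this.1 (fun k => congrFun this.2 k) k
  choose R hR using fun c => (TT Φ (e0 c) (i0 c) (f c)).mulVecLin.exists_leftInverse_of_injective
    (LinearMap.ker_eq_bot'.2 (inj c _ _ _ (ad0 c _ (ha0 c))))
  let β : Chart n X → L.ι → S → Fin (n + 1) → ℂ := fun e a c => Fin.cons 0 (α e a c)
  let A : L.ι → S → (Fin (N + 1) → ℂ) →ₗ[ℂ] ℂ := fun a c =>
    ((Φ (f c)).rep (i0 c))⁻¹ • (dotProductBilin ℂ ℂ (β (e0 c) a c)).comp (R c)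
  have key : ∀ c e i a, Ad c e i a → ∀ v,
      A a c ((Φ (f c)).rep i • TT Φ e i (f c) *ᵥ v) = β e a c ⬝ᵥ v := fun c e i a h v => by
    obtain ⟨κ, hκ⟩ := (tan c e i a h).2.2 (e0 c) (i0 c) (at_chart _) (idx_ne _) (Fin.tail v)
    have h1 := TT_mulVec Φ (e0 c) (idx_ne (Φ (f c)))
      (Fin.cons (v 0 + κ) (jacM e (e0 c) (f c) *ᵥ Fin.tail v))
    rw [Fin.cons_zero, Fin.tail_cons, add_smul, add_assoc, ← hκ, ← TT_mulVec Φ e h.2.1] at h1
    have h2 := LinearMap.congr_fun (hR c) (Fin.cons (v 0 + κ) (jacM e (e0 c) (f c) *ᵥ Fin.tail v))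
    rw [← h1, map_smul]
    simp only [A, LinearMap.smul_apply, LinearMap.comp_apply, smul_eq_mul]
    rw [mul_inv_cancel_left₀ (idx_ne _)]
    refine (congrArg (β (e0 c) a c ⬝ᵥ ·) h2).trans ?_
    simp only [β, cons_dot, LinearMap.id_apply, Fin.tail_cons]
    rw [hq.chg e (e0 c) a c h.1 (at_chart _) h.2.2, Matrix.dotProduct_mulVec]
  have hfr : ∀ a b c w, c ∈ L.U a → c ∈ L.U b → A a c w = L.g a b c * A b c w :=
    fun a b c w h1 h2 => by
      simp only [A, β, LinearMap.smul_apply, LinearMap.comp_apply, smul_eq_mul,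
        dotProductBilin_apply_apply, cons_dot]
      rw [hq.fr _ a b c (at_chart _) h1 h2, smul_dotProduct, smul_eq_mul]
      ring
  have hβ : ∀ c e i a, Ad c e i a → β e a c ≠ 0 := fun c e i a h h0 =>
    hq.nz e a c h.1 h.2.2 (funext fun k => congrFun h0 k.succ)
  let ℓ : ∀ c, tangent Z (Φ (f c)) →ₗ[ℂ] ℂ := fun c => (A (a0 c) c).comp (Submodule.subtype _)
  let H : S → Submodule ℂ (Fin (N + 1) → ℂ) := fun c => (LinearMap.ker (ℓ c)).map (Submodule.subtype _)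
  have hH : ∀ a c, c ∈ L.U a → ∀ w ∈ tangent Z (Φ (f c)), w ∈ H c ↔ A a c w = 0 := by
    intro a c h w hw
    rw [hfr a (a0 c) c w h (ha0 c), mul_eq_zero, or_iff_right (hL.ne_zero _ _ c h (ha0 c))]
    exact ⟨fun ⟨u, h1, h2⟩ => h2 ▸ h1, fun h1 => ⟨⟨w, hw⟩, h1, rfl⟩⟩
  obtain ⟨M, hM'⟩ := Nat.exists_eq_succ_of_ne_zero
    (Fintype.card_ne_zero (α := (Fin (n + 1) → Fin (N + 1)) × Fin (n + 1)))
  let σ := (Fintype.equivFinOfCardEq hM').symm
  let B : Chart n X → Fin (N + 1) → L.ι → S → Fin (M + 1) → ℂ := fun e i a c m =>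
    (β e a c ᵥ* ((TT Φ e i (f c)).submatrix (σ m).1 id).adjugate) (σ m).2
  have hB : ∀ c e i a, Ad c e i a → B e i a c ≠ 0 := fun c e i a h h0 => by
    obtain ⟨I, hI⟩ := P299G11.exists_minor _ (inj c e i a h)
    have h1 : β e a c ᵥ* ((TT Φ e i (f c)).submatrix I id).adjugate = 0 := funext fun k => by
      simpa [B] using congrFun h0 (σ.symm (I, k))
    have h2 := congrArg (· ᵥ* (TT Φ e i (f c)).submatrix I id) h1
    simp only [Matrix.vecMul_vecMul, Matrix.adjugate_mul, Matrix.vecMul_smul, Matrix.vecMul_one,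
      Matrix.zero_vecMul] at h2
    exact hβ c e i a h ((smul_eq_zero.1 h2).resolve_left hI)
  have cmp : ∀ c e i a e' i' a', Ad c e i a → Ad c e' i' a' →
      (∃ ν : ℂ, B e' i' a' c = ν • B e i a c) ∧ ∀ I : Fin (n + 1) → Fin (N + 1),
        ((TT Φ e i (f c)).submatrix I id).det = 0 →
          ((TT Φ e' i' (f c)).submatrix I id).det = 0 := by
    intro c e i a e' i' a' h h'
    obtain ⟨ν, δ, h1⟩ := frame (T := TT Φ e i (f c)) (T' := TT Φ e' i' (f c)) (β := β e a c)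
      (β' := β e' a' c) (μ := L.g a' a c * (Φ (f c)).rep i' / (Φ (f c)).rep i) (fun v' => by
        obtain ⟨v, hv⟩ := (mem c e i a h _).1 ((mem c e' i' a' h' _).2 ⟨v', rfl⟩)
        refine ⟨(((Φ (f c)).rep i')⁻¹ * (Φ (f c)).rep i) • v, ?_⟩
        rw [Matrix.mulVec_smul, mul_smul, ← hv, smul_smul, inv_mul_cancel₀ h'.2.1, one_smul])
      fun v v' hv => by
        rw [← key c e i a h, ← key c e' i' a' h', hv, hfr a' a c _ h'.2.2 h.2.2, map_smul,
          map_smul, smul_eq_mul, smul_eq_mul]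
        have := h.2.1
        field_simp
    exact ⟨⟨ν, funext fun m => congrFun (h1 _).1 _⟩, fun I hI => by rw [(h1 I).2, hI, zero_mul]⟩
  have anB : ∀ p e i a, Ad p e i a → An (B e i a) p := fun p e i a h => An.pi fun m => by
    refine An.sum (u := fun k c => β e a c k *
      ((TT Φ e i (f c)).submatrix (σ m).1 id).adjugate k (σ m).2) fun k => An.mul ?_
      (An.adj (M := fun c => (TT Φ e i (f c)).submatrix (σ m).1 id)
        (fun j k => an_TT hA.2.1 hf h.1 h.2.1 ((σ m).1 j) k) k (σ m).2)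
    refine Fin.cases (An.const 0 p) (fun k => ?_) k
    exact An.app (hq.hol e a p h.1 h.2.2) k
  let Ψ : S → PN M := fun c => Projectivization.mk ℂ _ (hB c _ _ _ (ad0 c _ (ha0 c)))
  have hΨ : ∀ c e i a (h : Ad c e i a), Ψ c = Projectivization.mk ℂ _ (hB c e i a h) :=
    fun c e i a h => (Projectivization.mk_eq_mk_iff' ℂ _ _ _ _).2
      ((cmp c e i a _ _ _ h (ad0 c _ (ha0 c))).1.imp fun _ h => h.symm)
  obtain ⟨g, hg, hgΨ⟩ := hM 1 K M S Θ Ψ hΘ hΘ' fun p => ⟨_, anB p _ _ _ (ad0 p _ (ha0 p)),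
    (adv p _ _ _ (ad0 p _ (ha0 p))).mono fun c h => ⟨_, hΨ c _ _ _ h⟩⟩
  refine ⟨H, fun a c w => A a c w, fun c => ?_, hH, hfr, fun c₀ => ?_⟩
  · have h := ad0 c _ (ha0 c)
    have hz : Φ (f c) ∈ Z := hA.2.2 ▸ ⟨_, rfl⟩
    have h1 := TT_mulVec Φ (e0 c) h.2.1 (Fin.cons 1 0)
    rw [Fin.cons_zero, Fin.tail_cons, map_zero, smul_zero, add_zero, one_smul] at h1
    refine ⟨hz, (hH _ c (ha0 c) _ ((mem c _ _ _ h _).2 ⟨_, h1.symm⟩)).2 ?_,
      Submodule.map_subtype_le _ _, ?_⟩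
    · rw [← h1, key c _ _ _ h]
      simp [β, cons_dot]
    · have h2 : ℓ c ≠ 0 := fun h0 => hβ c _ _ _ h (funext fun k => by
        have := LinearMap.congr_fun h0 ⟨_, (mem c _ _ _ h _).2 ⟨Pi.single k 1, rfl⟩⟩
        rw [← dotProduct_single_one (β _ _ c) k, ← key c _ _ _ h]
        exact this)
      have h3 := Module.Dual.finrank_ker_add_one_of_ne_zero h2
      rw [hZ.smooth _ hz] at h3
      rw [Submodule.finrank_map_subtype_eq]
      omega
  obtain ⟨F, d, hF, hF0, hFg⟩ := hg (Θ c₀) ⟨c₀, rfl⟩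
  have lam : ∀ c e i a, Ad c e i a → ∃ t : ℂ, val F (Θ c) = t • B e i a c := fun c e i a h => by
    by_cases h0 : val F (Θ c) = 0
    · exact ⟨0, by rw [h0, zero_smul]⟩
    · have := hFg (Θ c) ⟨c, rfl⟩ h0
      rw [hgΨ, hΨ c e i a h, eq_comm, Projectivization.mk_eq_mk_iff'] at this
      exact this.imp fun _ h => h.symm
  obtain ⟨I, hI⟩ := P299G11.exists_minor _ (inj c₀ _ _ _ (ad0 c₀ _ (ha0 c₀)))
  let P : Fin (N + 1) → MvPolynomial (Fin (K + 1)) ℂ := fun j =>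
    ∑ k, if I k = j then F (σ.symm (I, k)) else 0
  have hP : ∀ c e i a, Ad c e i a → ∀ t, val F (Θ c) = t • B e i a c →
      ∀ w ∈ tangent Z (Φ (f c)), val P (Θ c) ⬝ᵥ w =
        t * ((TT Φ e i (f c)).submatrix I id).det * (Φ (f c)).rep i * A a c w := by
    intro c e i a h t ht w hw
    obtain ⟨v, rfl⟩ := (mem c e i a h w).1 hw
    have h1 : ∀ w, val P (Θ c) ⬝ᵥ w = ∑ k, val F (Θ c) (σ.symm (I, k)) * w (I k) := fun w => by
      simp only [val, P, dotProduct, map_sum, Finset.sum_mul, apply_ite (eval _), map_zero, ite_mul,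
        zero_mul]
      rw [Finset.sum_comm]
      simp
    have h2 : (β e a c ᵥ* ((TT Φ e i (f c)).submatrix I id).adjugate) ⬝ᵥ
        ((TT Φ e i (f c)).submatrix I id *ᵥ v) =
        ((TT Φ e i (f c)).submatrix I id).det * (β e a c ⬝ᵥ v) := by
      rw [Matrix.dotProduct_mulVec, Matrix.vecMul_vecMul, Matrix.adjugate_mul, Matrix.vecMul_smul,
        Matrix.vecMul_one, smul_dotProduct, smul_eq_mul]
    rw [key c e i a h, h1, ht, mul_assoc, mul_assoc, mul_left_comm (Matrix.det _), ← h2, dotProduct,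
      Finset.mul_sum, Finset.mul_sum]
    refine Finset.sum_congr rfl fun k _ => ?_
    simp only [B, Pi.smul_apply, smul_eq_mul, Equiv.apply_symm_apply]
    change _ * (_ * (TT Φ e i (f c) *ᵥ v) (I k)) = _ * (_ * (_ * (TT Φ e i (f c) *ᵥ v) (I k)))
    ring
  let l := idx (Θ c₀)
  let E : Set S := {c | val F (Θ c) = 0 ∨ ((TT Φ (e0 c) (i0 c) (f c)).submatrix I id).det = 0 ∨
    (Θ c).rep l = 0 ∨ (Φ (f c)).rep (i0 c₀) = 0}
  have hE0 : c₀ ∉ E := by
    rintro (h | h | h | h)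
    exacts [hF0 h, hI h, idx_ne _ h, idx_ne _ h]
  have loc : ∀ p a, p ∈ L.U a → ∃ u v : S → ℂ, An u p ∧ An v p ∧ ∀ᶠ c in 𝓝 p,
      (c ∈ E ↔ u c * v c = 0) ∧ (c ∉ E → ∃ y, y ≠ 0 ∧ ∀ w ∈ tangent Z (Φ (f c)),
        val P (Θ c) ⬝ᵥ w / ((Θ c).rep l ^ d * (Φ (f c)).rep (i0 c₀)) = u c / v c * A a c w) := by
    intro p a hp
    have h := ad0 p a hp
    obtain ⟨m, hm⟩ := Function.ne_iff.1 (hB p _ _ _ h)
    have aΘ : An (fun c => aff (idx (Θ p)) (Θ c)) p := fun c hc =>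
      ((lift_aff hΘ' _).holo p (idx_ne _) c hc).analyticAt
    refine ⟨fun c => eval (aff (idx (Θ p)) (Θ c)) (F m) *
        ((TT Φ (e0 p) (i0 p) (f c)).submatrix I id).det * aff (idx (Θ p)) (Θ c) l,
      fun c => B (e0 p) (i0 p) a c m * aff (idx (Θ p)) (Θ c) l ^ (d + 1) *
        TT Φ (e0 p) (i0 p) (f c) (i0 c₀) 0,
      ((aΘ.eval _).mul (An.det fun j k => an_TT hA.2.1 hf h.1 h.2.1 _ _)).mul (aΘ.app l),
      (((anB p _ _ _ h).app m).mul ((aΘ.app l).pow _)).mul (an_TT hA.2.1 hf h.1 h.2.1 _ _), ?_⟩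
    filter_upwards [adv p _ _ _ h, ((anB p _ _ _ h).app m).cont.eventually_ne hm,
      (lift_aff hΘ' (idx (Θ p))).isOpen.mem_nhds (idx_ne _)] with c hc h1 h2
    obtain ⟨t, ht⟩ := lam c _ _ _ hc
    have h3 : (Θ c).rep (idx (Θ p)) ≠ 0 := h2
    have h4 : t * B (e0 p) (i0 p) a c m = _ := (congrFun ht m).symm.trans (eval_aff (hF m) h3)
    have h5 : val F (Θ c) = 0 ↔ eval (aff (idx (Θ p)) (Θ c)) (F m) = 0 := by
      rw [ht, smul_eq_zero, or_iff_left (hB c _ _ _ hc), ← mul_eq_zero_iff_right h1, h4,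
        mul_eq_zero_iff_left (pow_ne_zero _ h3)]
    have h6 := (cmp c _ _ _ _ _ _ hc (ad0 c a hc.2.2)).2 I
    have h7 := (cmp c _ _ _ _ _ _ (ad0 c a hc.2.2) hc).2 I
    have h8 : TT Φ (e0 p) (i0 p) (f c) (i0 c₀) 0 =
      (Φ (f c)).rep (i0 c₀) / (Φ (f c)).rep (i0 p) := rfl
    have h9 : aff (idx (Θ p)) (Θ c) l = (Θ c).rep l / (Θ c).rep (idx (Θ p)) := rfl
    have h10 := hc.2.1
    refine ⟨?_, fun hn => ⟨1, one_ne_zero, fun w hw => ?_⟩⟩
    · have h12 : c ∈ E ↔ eval (aff (idx (Θ p)) (Θ c)) (F m) = 0 ∨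
          ((TT Φ (e0 p) (i0 p) (f c)).submatrix I id).det = 0 ∨ (Θ c).rep l = 0 ∨
          (Φ (f c)).rep (i0 c₀) = 0 := or_congr h5 (or_congr ⟨h7, h6⟩ Iff.rfl)
      rw [h12, h8, h9]
      exact zero_iff d h1 h3 h10
    · simp only [E, Set.mem_ofPred_eq, not_or] at hn
      obtain ⟨-, -, n3, n4⟩ := hn
      have h11 : t = (Θ c).rep (idx (Θ p)) ^ d * eval (aff (idx (Θ p)) (Θ c)) (F m) /
        B (e0 p) (i0 p) a c m := eq_div_of_mul_eq h1 h4
      rw [hP c _ _ _ hc t ht w hw, h8, h9, h11]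
      exact quot_eq d h1 h3 h10 n3 n4
  obtain ⟨hfin, hpun⟩ := ident hE0 fun p => by
    obtain ⟨u, v, hu, hv, h⟩ := loc p _ (ha0 p)
    exact ⟨_, hu.mul hv, h.mono fun _ h => h.1⟩
  refine ⟨P, d, l, i0 c₀, E, fun j => IsHomogeneous.sum _ _ _ fun k _ => ?_, idx_ne _, idx_ne _,
    hfin, hE0, fun c hc w hw => ?_, fun p a hp => ?_⟩
  · split_ifs
    exacts [hF _, isHomogeneous_zero _ _ _]
  · obtain ⟨t, ht⟩ := lam c _ _ _ (ad0 c _ (ha0 c))
    simp only [E, Set.mem_ofPred_eq, not_or] at hc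
    have h1 : t ≠ 0 := fun h => hc.1 (by rw [ht, h, zero_smul])
    rw [hP c _ _ _ (ad0 c _ (ha0 c)) t ht w hw, hH _ c (ha0 c) w hw,
      mul_eq_zero_iff_left (mul_ne_zero (mul_ne_zero h1 hc.2.1) (idx_ne _))]
  · obtain ⟨u, v, hu, hv, h⟩ := loc p a hp
    obtain ⟨m, m1, m2⟩ := rat hu hv (by
      filter_upwards [hpun p, mem_nhdsWithin_of_mem_nhds h] with c h1 h2
      exact mul_ne_zero_iff.1 fun h3 => h1 (h2.1.2 h3))
    refine ⟨_, m, m1, fun e => m2 (mul_ne_zero_iff.1 fun h3 =>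
      hE0 (e ▸ h.self_of_nhds.1.2 h3)), ?_⟩
    filter_upwards [hpun p, mem_nhdsWithin_of_mem_nhds h] with c h1 h2
    obtain ⟨-, -, h3⟩ := h2.2 h1
    exact h3

end Vale.Agent.P280A

end
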