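import Vale.Agent.P280A30.Rows
import Vale.Agent.P299G40.GPsi
import Mathlib.Analysis.Analytic.IsolatedZeros
import Mathlib.Analysis.Analytic.Polynomial

/-!
# P280C59: holomorphic functions on a Riemann surface
-/

open scoped Manifold ContDiff Topology
open Matrix Filter
open Vale.Agent.P272.K Vale.Agent.P299G40

noncomputable section

namespace Vale.Agent.P280A.C59

variable {S : Type} [TopologicalSpace S] [ChartedSpace (Cm 1) S]

/-- holomorphic at `p` -/
def An {F : Type} [NormedAddCommGroup F] [NormedSpace ℂ F] (u : S → F) (p : S) : Prop :=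
  ∀ c : Chart 1 S, At c p → AnalyticAt ℂ (fun t => u (c.symm t)) (c p)

theorem An.cont {F : Type} [NormedAddCommGroup F] [NormedSpace ℂ F] {u : S → F} {p : S}
    (h : An u p) : ContinuousAt u p := by
  have := (h _ (at_chart p)).continuousAt.comp
    ((chartAt (Cm 1) p).continuousAt (mem_chart_source _ p))
  refine this.congr ?_
  filter_upwards [(chartAt (Cm 1) p).open_source.mem_nhds (mem_chart_source _ p)] with z hz
  exact congrArg u ((chartAt (Cm 1) p).left_inv hz)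

theorem An.mul {u v : S → ℂ} {p : S} (h : An u p) (h' : An v p) : An (fun c => u c * v c) p :=
  fun c hc => (h c hc).mul (h' c hc)

theorem An.pow {u : S → ℂ} {p : S} (h : An u p) (d : ℕ) : An (fun c => u c ^ d) p :=
  fun c hc => (h c hc).pow d

theorem An.const {F : Type} [NormedAddCommGroup F] [NormedSpace ℂ F] (a : F) (p : S) :
    An (fun _ => a) p := fun _ _ => analyticAt_const

theorem An.app {ι : Type} [Fintype ι] {u : S → ι → ℂ} {p : S} (h : An u p) (i : ι) :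
    An (fun c => u c i) p := fun c hc => analyticAt_pi_iff.1 (h c hc) i

theorem An.pi {ι : Type} [Fintype ι] {u : S → ι → ℂ} {p : S} (h : ∀ i, An (fun c => u c i) p) :
    An u p := fun c hc => analyticAt_pi_iff.2 fun i => h i c hc

theorem An.sum {ι : Type} [Fintype ι] {u : ι → S → ℂ} {p : S} (h : ∀ i, An (u i) p) :
    An (fun c => ∑ i, u i c) p := fun c hc =>
  Finset.analyticAt_fun_sum _ fun i _ => h i c hc

theorem An.det {ι : Type} [Fintype ι] [DecidableEq ι] {M : S → Matrix ι ι ℂ} {p : S}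
    (h : ∀ i j, An (fun c => M c i j) p) : An (fun c => (M c).det) p := by
  simp only [Matrix.det_apply']
  exact An.sum fun σ => (An.const _ p).mul fun c hc =>
    Finset.analyticAt_fun_prod _ fun i _ => h _ _ c hc

theorem An.adj {ι : Type} [Fintype ι] [DecidableEq ι] {M : S → Matrix ι ι ℂ} {p : S}
    (h : ∀ i j, An (fun c => M c i j) p) (i j : ι) : An (fun c => (M c).adjugate i j) p := by
  simp only [Matrix.adjugate_apply]
  refine An.det fun a b => ?_
  simp only [Matrix.updateRow_apply]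
  split_ifs
  · exact An.const _ p
  · exact h a b

theorem An.eval {ι : Type} [Fintype ι] {u : S → ι → ℂ} {p : S} (h : An u p)
    (P : MvPolynomial ι ℂ) : An (fun c => MvPolynomial.eval (u c) P) p := fun c hc =>
  AnalyticAt.aeval_mvPolynomial (fun i => h.app i c hc) P

theorem ord_ne {u : S → ℂ} {p : S} {m : ℤ} (h : OrdAt u p m) : ∀ᶠ c in 𝓝[≠] p, u c ≠ 0 := by
  obtain ⟨v, h1, h2, h3⟩ := h
  have hc : ContinuousAt v p := by
    have := h1.continuousAt.comp ((chartAt (Cm 1) p).continuousAt (mem_chart_source _ p))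
    refine this.congr ?_
    filter_upwards [(chartAt (Cm 1) p).open_source.mem_nhds (mem_chart_source _ p)] with z hz
    exact congrArg v ((chartAt (Cm 1) p).left_inv hz)
  filter_upwards [h3, mem_nhdsWithin_of_mem_nhds (hc.eventually_ne h2), self_mem_nhdsWithin,
    mem_nhdsWithin_of_mem_nhds ((chartAt (Cm 1) p).open_source.mem_nhds (mem_chart_source _ p))]
    with c e1 e2 e3 e4
  rw [e1]
  refine mul_ne_zero e2 (zpow_ne_zero _ (sub_ne_zero.2 fun e => e3 ?_))
  refine (chartAt (Cm 1) p).injOn e4 (mem_chart_source _ p) (funext fun i => ?_)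
  rwa [Subsingleton.elim i 0]

theorem An.ord {u : S → ℂ} {p : S} (h : An u p) :
    (∀ᶠ c in 𝓝 p, u c = 0) ∨ ∃ m, OrdAt u p m := by
  set φ := chartAt (Cm 1) p with hφ
  have hp : p ∈ φ.source := mem_chart_source _ p
  have e0 : ∀ z : Cm 1, (fun _ => z 0) = z := fun z => funext fun i => by rw [Subsingleton.elim i 0]
  have hl : AnalyticAt ℂ (fun (t : ℂ) (_ : Fin 1) => t) (φ p 0) :=
    analyticAt_pi_iff.2 fun _ => analyticAt_id
  have hg : AnalyticAt ℂ (fun t : ℂ => u (φ.symm fun _ => t)) (φ p 0) :=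
    (h φ (at_chart p)).comp_of_eq hl (e0 _)
  have ht : Tendsto (fun c => φ c 0) (𝓝 p) (𝓝 (φ p 0)) :=
    ((continuous_apply 0).continuousAt.comp (φ.continuousAt hp)).tendsto
  have hu : ∀ᶠ c in 𝓝 p, u (φ.symm fun _ => φ c 0) = u c := by
    filter_upwards [φ.open_source.mem_nhds hp] with c hc
    rw [e0, φ.left_inv hc]
  by_cases h0 : ∀ᶠ t in 𝓝 (φ p 0), u (φ.symm fun _ => t) = 0
  · left
    filter_upwards [ht.eventually h0, hu] with c h1 h2
    rw [← h2, h1]
  · obtain ⟨m, g, g1, g2, g3⟩ := hg.exists_eventuallyEq_pow_smul_nonzero_iff.2 h0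
    refine Or.inr ⟨m, fun c => g (φ c 0), ?_, g2, mem_nhdsWithin_of_mem_nhds ?_⟩
    · have a1 : AnalyticAt ℂ (fun z : Cm 1 => z 0) (φ p) := analyticAt_pi_iff.1 analyticAt_id 0
      refine (g1.comp_of_eq a1 rfl).congr ?_
      filter_upwards [φ.open_target.mem_nhds (φ.map_source hp)] with z hz
      rw [Function.comp_apply, φ.right_inv hz]
    · filter_upwards [ht.eventually g3, hu] with c h1 h2
      rw [← h2, h1, smul_eq_mul, zpow_natCast, mul_comm]

theorem neBot (p : S) : (𝓝[≠] p).NeBot := by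
  refine ⟨fun h => ?_⟩
  have h1 := (chartAt (Cm 1) p).isOpen_image_of_subset_source
    ((isOpen_singleton_iff_punctured_nhds p).2 h)
    (Set.singleton_subset_iff.2 (mem_chart_source _ p))
  rw [Set.image_singleton, isOpen_singleton_iff_punctured_nhds] at h1
  exact (Module.punctured_nhds_neBot ℂ (Cm 1) _).ne h1

theorem An.ord' {u : S → ℂ} {p : S} (h : An u p) (h' : ∀ᶠ c in 𝓝[≠] p, u c ≠ 0) :
    ∃ m, OrdAt u p m ∧ (u p ≠ 0 → OrdAt u p 0) := by
  have := neBot p
  rcases h.ord with h0 | ⟨m, hm⟩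
  · obtain ⟨c, h1, h2⟩ := (h'.and (mem_nhdsWithin_of_mem_nhds h0)).exists
    exact (h1 h2).elim
  · exact ⟨m, hm, fun h1 => ⟨u, h _ (at_chart p), h1, Eventually.of_forall fun c => by simp⟩⟩

theorem ord_div {u v : S → ℂ} {p : S} {m k : ℤ} (h : OrdAt u p m) (h' : OrdAt v p k) :
    OrdAt (fun c => u c / v c) p (m - k) := by
  have hv := ord_ne h'
  obtain ⟨a, a1, a2, a3⟩ := h
  obtain ⟨b, b1, b2, b3⟩ := h'
  refine ⟨fun c => a c / b c, a1.div b1 (by
    rwa [(chartAt (Cm 1) p).left_inv (mem_chart_source _ p)]), div_ne_zero a2 b2, ?_⟩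
  filter_upwards [a3, b3, self_mem_nhdsWithin,
    mem_nhdsWithin_of_mem_nhds ((chartAt (Cm 1) p).open_source.mem_nhds (mem_chart_source _ p))]
    with c e1 e2 e3 e4
  have : chartAt (Cm 1) p c 0 - chartAt (Cm 1) p p 0 ≠ 0 := sub_ne_zero.2 fun e => e3 <|
    (chartAt (Cm 1) p).injOn e4 (mem_chart_source _ p) (funext fun i => by
      rwa [Subsingleton.elim i 0])
  rw [e1, e2, zpow_sub₀ this, mul_div_mul_comm]

theorem rat {u v : S → ℂ} {p : S} (h : An u p) (h' : An v p)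
    (hn : ∀ᶠ c in 𝓝[≠] p, u c ≠ 0 ∧ v c ≠ 0) :
    ∃ m, OrdAt (fun c => u c / v c) p m ∧ (u p ≠ 0 ∧ v p ≠ 0 → m = 0) := by
  obtain ⟨m, m1, m2⟩ := h.ord' (hn.mono fun _ h => h.1)
  obtain ⟨k, k1, k2⟩ := h'.ord' (hn.mono fun _ h => h.2)
  by_cases h0 : u p ≠ 0 ∧ v p ≠ 0
  · exact ⟨_, ord_div (m2 h0.1) (k2 h0.2), fun _ => sub_zero _⟩
  · exact ⟨_, ord_div m1 k1, fun h1 => (h0 h1).elim⟩

theorem ident [CompactSpace S] [ConnectedSpace S] {E : Set S} {c₀ : S} (h0 : c₀ ∉ E)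
    (h : ∀ p, ∃ u : S → ℂ, An u p ∧ ∀ᶠ c in 𝓝 p, c ∈ E ↔ u c = 0) :
    E.Finite ∧ ∀ p, ∀ᶠ c in 𝓝[≠] p, c ∉ E := by
  have h1 : ∀ p, p ∉ interior E → ∀ᶠ c in 𝓝[≠] p, c ∉ E := fun p hp => by
    obtain ⟨u, hu, he⟩ := h p
    rcases hu.ord with h2 | ⟨m, hm⟩
    · refine (hp (mem_interior_iff_mem_nhds.2 ?_)).elim
      filter_upwards [he, h2] with c e1 e2 using e1.2 e2
    · filter_upwards [ord_ne hm, mem_nhdsWithin_of_mem_nhds he] with c e1 e2 e3 using e1 (e2.1 e3)
  have h2 : IsClosed (interior E) := by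
    rw [← isOpen_compl_iff, isOpen_iff_mem_nhds]
    intro p hp
    filter_upwards [eventually_nhdsWithin_iff.1 (h1 p hp)] with c hc e
    by_cases e1 : c = p
    · exact hp (e1 ▸ e)
    · exact hc e1 (interior_subset e)
  have h3 : interior E = ∅ := by
    rcases isClopen_iff.1 ⟨h2, isOpen_interior⟩ with e | e
    · exact e
    · exact (h0 (interior_subset (e.ge (Set.mem_univ c₀)))).elim
  have h4 : ∀ p, ∀ᶠ c in 𝓝[≠] p, c ∉ E := fun p => h1 p (by simp [h3])
  refine ⟨?_, h4⟩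
  obtain ⟨t, -, ht⟩ := isCompact_univ.elim_nhds_subcover (fun p => {c | c ∈ ({p}ᶜ : Set S) → c ∉ E})
    fun p _ => eventually_nhdsWithin_iff.1 (h4 p)
  refine t.finite_toSet.subset fun c hc => ?_
  obtain ⟨p, hp, e⟩ := Set.mem_iUnion₂.1 (ht (Set.mem_univ c))
  by_contra hn
  exact e (fun e1 => hn (Set.mem_singleton_iff.1 e1 ▸ hp)) hc

theorem an_chart {n : ℕ} {X : Type} [TopologicalSpace X] [ChartedSpace (Cm n) X]
    [IsManifold 𝓘(ℂ, Cm n) ω X] [IsManifold 𝓘(ℂ, Cm 1) ω S] {f : S → X}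
    (hf : ContMDiff 𝓘(ℂ, Cm 1) 𝓘(ℂ, Cm n) ω f) {e : Chart n X} {p : S} (he : At e (f p)) :
    An (fun c => e (f c)) p := by
  intro c hc
  have h1 : ContMDiffAt 𝓘(ℂ, Cm 1) 𝓘(ℂ, Cm 1) ω c.symm (c p) :=
    contMDiffAt_symm_of_mem_maximalAtlas (IsManifold.subset_maximalAtlas hc.1) (c.map_source hc.2)
  have h2 : ContMDiffAt 𝓘(ℂ, Cm n) 𝓘(ℂ, Cm n) ω e (f (c.symm (c p))) := by
    rw [c.left_inv hc.2]
    exact contMDiffAt_of_mem_maximalAtlas (IsManifold.subset_maximalAtlas he.1) he.2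
  exact (contMDiffAt_iff_contDiffAt.1 (h2.comp (c p) ((hf _).comp (c p) h1))).analyticAt

/-- The change of frames. -/
theorem frame {ι κ : Type} [Fintype ι] [Fintype κ] [DecidableEq κ] {T T' : Matrix ι κ ℂ}
    {β β' : κ → ℂ} {μ : ℂ} (h1 : ∀ v', ∃ v, T' *ᵥ v' = T *ᵥ v)
    (h2 : ∀ v v', T' *ᵥ v' = T *ᵥ v → β' ⬝ᵥ v' = μ * (β ⬝ᵥ v)) :
    ∃ ν δ : ℂ, ∀ I : κ → ι, β' ᵥ* (T'.submatrix I id).adjugate =
      ν • (β ᵥ* (T.submatrix I id).adjugate) ∧
        (T'.submatrix I id).det = (T.submatrix I id).det * δ := by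
  choose g hg using fun k => h1 (Pi.single k 1)
  let G : Matrix κ κ ℂ := Matrix.of fun a k => g k a
  have e1 : T' = T * G := by
    ext j k
    have := congrFun (hg k) j
    rw [Matrix.mulVec_single_one] at this
    exact this
  have e2 : β' = μ • (β ᵥ* G) := funext fun k => by
    have := h2 _ _ (hg k)
    rw [dotProduct_single_one] at this
    exact this
  refine ⟨μ * G.det, G.det, fun I => ?_⟩
  have e3 : T'.submatrix I id = T.submatrix I id * G := by
    rw [e1]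
    rfl
  rw [e3, Matrix.det_mul, Matrix.adjugate_mul_distrib, e2, Matrix.smul_vecMul, Matrix.vecMul_vecMul,
    ← Matrix.mul_assoc, Matrix.mul_adjugate, Matrix.smul_mul, Matrix.one_mul, Matrix.vecMul_smul,
    smul_smul]
  exact ⟨rfl, rfl⟩

end Vale.Agent.P280A.C59

end
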